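import Vale.Agent.P006.V1.MainPart
import Vale.Agent.P006.V1.Sep
import Vale.Agent.P006.DISP.Stmt
import Vale.Agent.P006.CM.CubeSum

/-!
P006, block V1 (C): conversions between the notation of `V1/*` and of `DISP/Stmt`.
-/

namespace Vale.Agent.P006.V1C

open scoped BigOperators Classical
open Vale.Agent.P006 Finset MeasureTheory
open Vale.Agent.P006.V1 (ch cop prim gd)
open Vale.Agent.P006.DISP

/-- the complex weight -/
noncomputable def Vc (V0 : ℝ → ℝ) (ξ u0 : ℝ) (u : ℝ) : ℂ := ((Vx V0 ξ u0 u : ℝ) : ℂ)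

theorem Vx_eq_zero {V0 : ℝ → ℝ} (hV : Bump V0) {ξ u0 u : ℝ} (hξ : 0 < ξ) (hξ1 : ξ ≤ 1)
    (hu : u0 + 3 / 2 < u) : Vx V0 ξ u0 u = 0 := by
  by_contra h
  have h1 := (hV.supp _ h).2
  rw [div_le_iff₀ hξ] at h1
  nlinarith

theorem Vx_eq_zero_of_neg {V0 : ℝ → ℝ} (hV : Bump V0) {ξ u0 u : ℝ} (hξ : 0 < ξ) (hξ1 : ξ ≤ 1)
    (hu : u < u0 - 1 / 2) : Vx V0 ξ u0 u = 0 := by
  by_contra h
  have h1 := (hV.supp _ h).1
  rw [le_div_iff₀ hξ] at h1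
  nlinarith

/-- (C1) -/
theorem wt_Vc {V0 : ℝ → ℝ} (hV : Bump V0) {ξ : ℝ} (hξ : 0 < ξ) (u0 : ℝ) :
    PO.Wt (Vc V0 ξ u0) where
  smooth := by
    have h1 : ContDiff ℝ (⊤ : ℕ∞) fun u : ℝ => V0 ((u - u0) / ξ) :=
      hV.smooth.comp ((contDiff_id.sub contDiff_const).div_const ξ)
    exact Complex.ofRealCLM.contDiff.comp h1
  supp := by
    refine HasCompactSupport.intro (K := Set.Icc (u0 - ξ / 2) (u0 + 3 * ξ / 2)) isCompact_Icc ?_
    intro u hu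
    have : Vx V0 ξ u0 u = 0 := by
      by_contra h
      apply hu
      have h1 := hV.supp _ h
      rw [le_div_iff₀ hξ, div_le_iff₀ hξ] at h1
      exact ⟨by linarith [h1.1], by linarith [h1.2]⟩
    rw [Vc, this, Complex.ofReal_zero]

/-- (C2) -/
theorem V1s_eq {V0 : ℝ → ℝ} (hV : Bump V0) {ξ u0 : ℝ} (hξ : 0 < ξ) (hξ1 : ξ ≤ 1)
    (hu : u0 ≤ 2) {B : ℝ} (hB : 0 < B) (W : O) (α : O → ℂ) (A : ℝ) :
    ((V1s (Vx V0 ξ u0) B W α A : ℝ) : ℂ) = V1.S1 (Vc V0 ξ u0) B W (SPB (2 * A)) α := by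
  rw [V1.S1, tsum_eq_sum (s := PB (4 * B)), V1s, Complex.ofReal_sum]
  · refine sum_congr rfl fun b hb => ?_
    rw [mem_PB] at hb
    rw [prim, if_pos hb.1, cop, wt, Xb, Vc]
    have e1 : ∑ a ∈ SPB (2 * A), α a * (gt 1 a * (starRingEnd ℂ) (ch a b)) =
        ∑ a ∈ SPB (2 * A), α a * gt 1 a * (starRingEnd ℂ) (ch a b) :=
      sum_congr rfl fun a _ => by ring
    rw [e1]
    split_ifs <;> push_cast <;> ring
  · intro b hb
    rw [mem_PB] at hb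
    by_cases hp : Primary b
    · have h1 : 4 * B < N b := by
        by_contra h2
        exact hb ⟨hp, not_lt.1 h2⟩
      have h3 : Vx V0 ξ u0 (N b / B) = 0 := by
        apply Vx_eq_zero hV hξ hξ1
        rw [lt_div_iff₀ hB]
        nlinarith
      rw [Vc, h3]; simp
    · rw [prim, if_neg hp]; simp

/-- (C3) -/
theorem beta_eq_dens (m : O) : KU.beta m = dens m := rfl

theorem card_D_eq_tau {k : O} (hk : k ≠ 0) : (HB.D k).card = tau k := by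
  rw [tau]
  congr 1
  ext d
  rw [HB.mem_D hk, mem_dvs hk]
  rfl

theorem N_gd {a b : O} (ha : Primary a) (hb : Primary b) :
    N (gd a b) = N (EuclideanDomain.gcd a b) := by
  obtain ⟨r1, r2, hd, h1, h2, e1, e2, hc⟩ := V1.gd_spec ha hb
  apply N_eq_of_associated
  apply associated_of_dvd_dvd
  · exact EuclideanDomain.dvd_gcd ⟨r1, e1⟩ ⟨r2, e2⟩
  · obtain ⟨x, y, hxy⟩ := hc
    have h3 : gd a b = x * a + y * b := by
      calc gd a b = gd a b * (x * r1 + y * r2) := by rw [hxy, mul_one]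
        _ = x * (gd a b * r1) + y * (gd a b * r2) := by ring
        _ = x * a + y * b := by rw [← e1, ← e2]
    rw [h3]
    exact dvd_add ((EuclideanDomain.gcd_dvd_left a b).mul_left x)
      ((EuclideanDomain.gcd_dvd_right a b).mul_left y)

theorem card_D_quot_le {a1 a2 : O} (h1 : Primary a1) (h2 : Primary a2) :
    ((HB.D (a1 / gd a1 a2 * (a2 / gd a1 a2))).card : ℝ) ≤ tau a1 * tau a2 := by
  obtain ⟨r1, r2, hd, p1, p2, e1, e2, hc⟩ := V1.gd_spec h1 h2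
  have q1 : a1 / gd a1 a2 = r1 := V1.div_eq_of hd.ne_zero e1
  have q2 : a2 / gd a1 a2 = r2 := V1.div_eq_of hd.ne_zero e2
  rw [q1, q2, card_D_eq_tau (p1.mul p2).ne_zero]
  have h3 : tau r1 ≤ tau a1 := tau_le_of_dvd h1.ne_zero ⟨gd a1 a2, by rw [mul_comm]; exact e1⟩
  have h4 : tau r2 ≤ tau a2 := tau_le_of_dvd h2.ne_zero ⟨gd a1 a2, by rw [mul_comm]; exact e2⟩
  exact_mod_cast (tau_mul_le p1 p2).trans (Nat.mul_le_mul h3 h4)

/-- (C4) polar coordinates -/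
theorem Vo_zero (V : ℝ → ℂ) : PO.Vo V 0 = Real.pi * ∫ u in Set.Ioi (0 : ℝ), V u := by
  have h1 : PO.Vo V 0 = ∫ z : ℂ, (fun r : ℝ => V (r ^ 2)) ‖z‖ := by
    rw [PO.Vo, PO.FT]
    refine integral_congr_ae (Filter.Eventually.of_forall fun z => ?_)
    simp [PO.rad]
  rw [h1, CM.integral_radial (fun r : ℝ => V (r ^ 2))]
  have hs := integral_comp_rpow_Ioi V (p := 2) (by norm_num)
  have h2 : ∫ r in Set.Ioi (0 : ℝ), (r : ℂ) * V (r ^ 2) =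
      (1 / 2 : ℂ) * ∫ u in Set.Ioi (0 : ℝ), V u := by
    rw [← hs, ← integral_const_mul]
    refine setIntegral_congr_fun measurableSet_Ioi fun x hx => ?_
    have hx : 0 < x := hx
    simp only [Complex.real_smul]
    have e1 : x ^ (2 : ℝ) = x ^ 2 := by rw [← Real.rpow_natCast]; norm_num
    have e2 : |(2 : ℝ)| * x ^ ((2 : ℝ) - 1) = 2 * x := by
      rw [abs_of_pos (by norm_num : (0 : ℝ) < 2)]; norm_num
    rw [e1, e2]
    push_cast; ring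
  rw [h2]
  ring

theorem integral_Ioi_Vx {V0 : ℝ → ℝ} (hV : Bump V0) {ξ u0 : ℝ} (hξ : 0 < ξ) (hξ1 : ξ ≤ 1)
    (hu : 1 ≤ u0) : ∫ u in Set.Ioi (0 : ℝ), Vc V0 ξ u0 u = ((∫ u : ℝ, Vx V0 ξ u0 u : ℝ) : ℂ) := by
  rw [← integral_complex_ofReal]
  apply setIntegral_eq_integral_of_forall_compl_eq_zero
  intro u hu'
  rw [Set.mem_Ioi, not_lt] at hu'
  have h0 : Vx V0 ξ u0 u = 0 := Vx_eq_zero_of_neg hV hξ hξ1 (by linarith)
  rw [Vc, h0, Complex.ofReal_zero]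

theorem diagTerm_eq {V0 : ℝ → ℝ} (hV : Bump V0) {ξ u0 : ℝ} (hξ : 0 < ξ) (hξ1 : ξ ≤ 1)
    (hu : 1 ≤ u0) (B : ℝ) (W a : O) :
    V1.diagTerm (Vc V0 ξ u0) B W a =
      ((kapP * dens W * B * (∫ u : ℝ, Vx V0 ξ u0 u) * dens a : ℝ) : ℂ) := by
  rw [V1.diagTerm, Vo_zero, integral_Ioi_Vx hV hξ hξ1 hu, beta_eq_dens, beta_eq_dens, kapP]
  have h3 : (Real.sqrt 3 : ℂ) ≠ 0 := by
    exact_mod_cast (Real.sqrt_pos.2 (by norm_num : (0 : ℝ) < 3)).ne'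
  push_cast
  field_simp

/-- (C5) -/
theorem IV_eq_IVr (V0 : ℝ → ℝ) (ξ u0 : ℝ) :
    CM.IV (Vc V0 ξ u0) = ((IVr (Vx V0 ξ u0) : ℝ) : ℂ) := by
  rw [CM.IV, IVr, ← integral_complex_ofReal]
  refine integral_congr_ae (Filter.Eventually.of_forall fun u => ?_)
  simp only [Vc]
  push_cast
  rfl

theorem kap0_eq_kap3 : 2 / (9 * Real.sqrt 3) * CM.kap3 = kap0 := by
  have hG : 0 < Real.Gamma (2 / 3) := Real.Gamma_pos_of_pos (by norm_num)
  have h3 : 0 < Real.sqrt 3 := Real.sqrt_pos.2 (by norm_num)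
  have h4 : Real.sqrt 3 ^ 2 = 3 := Real.sq_sqrt (by norm_num)
  rw [CM.kap3, kap0]
  field_simp
  rw [h4]
  ring

theorem mainPair_eq (V0 : ℝ → ℝ) (ξ u0 B : ℝ) (W : O) {a1 a2 : O} :
    V1.mainPair ((CM.kap3 : ℂ) * CM.IV (Vc V0 ξ u0)) B W a1 a2 =
      ((kap0 * IVr (Vx V0 ξ u0) * dens W * B ^ (2 / 3 : ℝ) *
        ((N a1 : ℝ) ^ (-(1 / 6) : ℝ) * (N a2 : ℝ) ^ (-(1 / 6) : ℝ) * dens (a1 * a2)) : ℝ) : ℂ) := by
  rw [V1.mainPair, IV_eq_IVr, ← Complex.ofReal_mul, ← Complex.ofReal_mul, beta_eq_dens,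
    beta_eq_dens, ← kap0_eq_kap3, Real.mul_rpow (Nat.cast_nonneg _) (Nat.cast_nonneg _)]
  congr 1
  have e : (-(1 / 6 : ℝ)) = (-(1 / 6) : ℝ) := rfl
  ring

/-- (C6) diagonal -/
theorem errPair_diag {E A B : ℝ} (hE : 0 ≤ E) (hA : 0 < A) (hB : 0 < B) {a : O}
    (ha : Primary a) (hAa : A < N a) :
    V1.errPair E B a a ≤ E * B * ((tau a : ℝ) ^ 2 * (A * B) ^ (-(1 / 3) : ℝ)) := by
  obtain ⟨r1, r2, hd, p1, p2, e1, e2, hc⟩ := V1.gd_spec ha ha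
  have hr : r1 = r2 := mul_left_cancel₀ hd.ne_zero (e1.symm.trans e2)
  subst hr
  have hr1 : r1 = 1 := p1.eq_one (isCoprime_self.1 hc)
  subst hr1
  have q1 : a / gd a a = 1 := V1.div_eq_of hd.ne_zero e1
  rw [mul_one] at e1
  have hNa : (0 : ℝ) < N a := by exact_mod_cast N_pos ha.ne_zero
  rw [V1.errPair, q1, ← e1, one_mul, HB.D_one, card_singleton, N_one,
    Real.sqrt_mul_self hNa.le, div_self hNa.ne']
  have h1 : (((1 : ℕ) : ℝ) / (B * N a)) ^ (1 / 3 : ℝ) ≤ (A * B) ^ (-(1 / 3) : ℝ) := by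
    rw [Nat.cast_one, one_div, Real.inv_rpow (by positivity), ← Real.rpow_neg (by positivity)]
    apply Real.rpow_le_rpow_of_nonpos (by positivity) _ (by norm_num)
    nlinarith
  have h2 : (1 : ℝ) ≤ (tau a : ℝ) ^ 2 := by
    have : (1 : ℝ) ≤ tau a := by exact_mod_cast ha.one_le_tau
    nlinarith
  have h3 : (0 : ℝ) ≤ (A * B) ^ (-(1 / 3) : ℝ) := by positivity
  calc E * B * 1 * ((1 : ℕ) : ℝ) * min 1 ((((1 : ℕ) : ℝ) / (B * N a)) ^ (1 / 3 : ℝ))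
      ≤ E * B * 1 * ((1 : ℕ) : ℝ) * (A * B) ^ (-(1 / 3) : ℝ) := by
        gcongr
        exact (min_le_right _ _).trans h1
    _ = E * B * (1 * (A * B) ^ (-(1 / 3) : ℝ)) := by push_cast; ring
    _ ≤ E * B * ((tau a : ℝ) ^ 2 * (A * B) ^ (-(1 / 3) : ℝ)) := by gcongr

/-- (C6) off the diagonal -/
theorem errPair_le {E B : ℝ} (hE : 0 ≤ E) (hB : 0 < B) {a1 a2 : O}
    (h1 : Primary a1) (h2 : Primary a2) :
    V1.errPair E B a1 a2 ≤ E * B * emk a1 a2 := by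
  have h3 := card_D_quot_le h1 h2
  rw [V1.errPair, emk, ← N_gd h1 h2]
  have h5 : (0 : ℝ) ≤ (N (gd a1 a2) : ℝ) / Real.sqrt ((N a1 : ℝ) * N a2) := by positivity
  calc E * B * (N (gd a1 a2) / Real.sqrt ((N a1 : ℝ) * N a2)) *
        (HB.D (a1 / gd a1 a2 * (a2 / gd a1 a2))).card *
        min 1 (((N (a1 / gd a1 a2 * (a2 / gd a1 a2)) : ℝ) / (B * N (gd a1 a2))) ^ (1 / 3 : ℝ))
      ≤ E * B * (N (gd a1 a2) / Real.sqrt ((N a1 : ℝ) * N a2)) *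
        (HB.D (a1 / gd a1 a2 * (a2 / gd a1 a2))).card * 1 := by
        gcongr
        exact min_le_left _ _
    _ ≤ E * B * (N (gd a1 a2) / Real.sqrt ((N a1 : ℝ) * N a2)) * (tau a1 * tau a2) * 1 := by
        gcongr
    _ = _ := by ring

end Vale.Agent.P006.V1C
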