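import Vale.Agent.P006.V1C.Conv

/-!
P006, block V1 (C7): assembly of `V1Hyp`.
-/

namespace Vale.Agent.P006.V1C

open scoped BigOperators Classical
open Vale.Agent.P006 Finset MeasureTheory
open Vale.Agent.P006.V1 (ch cop prim gd)
open Vale.Agent.P006.DISP

theorem SepK_mono {V : ℝ → ℂ} {σ : ℝ} {H : ℝ → ℂ} {C C' : ℝ} (h : V1.SepK V σ H C)
    (hC : C ≤ C') : V1.SepK V σ H C' :=
  ⟨h.cont, fun t => (h.bound t).trans (by gcongr), h.sep⟩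

/-- the kernel estimate for cubes, uniformly in `ξ` (helper627) -/
def CubeXi : Prop :=
  ∀ V0 : ℝ → ℝ, Bump V0 → ∃ E0 : ℝ, 0 ≤ E0 ∧ ∀ ξ u0 : ℝ, 0 < ξ → ξ ≤ 1 → 1 ≤ u0 → u0 ≤ 2 →
    V1.CubeKernel (Vc V0 ξ u0) ((CM.kap3 : ℂ) * CM.IV (Vc V0 ξ u0)) (E0 * ξ ^ (-(1 / 2) : ℝ))

/-- separation of variables, uniformly in `ξ` (helper570) -/
def SepXi : Prop :=
  ∀ V0 : ℝ → ℝ, Bump V0 → ∀ σ : ℝ, 0 < σ → ∃ C c : ℝ, 0 ≤ C ∧ 0 ≤ c ∧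
    ∀ ξ u0 : ℝ, 0 < ξ → ξ ≤ 1 → 1 ≤ u0 → u0 ≤ 2 →
    ∃ H : ℝ → ℂ, V1.SepK (Vc V0 ξ u0) σ H (C * ξ ^ (-c))

/-- the non-cube part (helper333) -/
def NCBound : Prop :=
  ∀ W : O, InP W → ∃ K : ℝ, 0 ≤ K ∧ ∀ (V : ℝ → ℂ), PO.Wt V → ∀ (H1 H2 : ℝ → ℂ) (C : ℝ), 0 ≤ C →
    V1.SepK V (1 / 6) H1 C → V1.SepK V 2 H2 C → ∀ A B : ℝ, 1 ≤ A → 1 ≤ B →
    ∀ α : O → ℂ, Adm W A α →
      ‖∑ a1 ∈ SPB (2 * A), ∑ a2 ∈ SPB (2 * A), α a1 * (starRingEnd ℂ) (α a2) *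
        V1.ncPair V B W a1 a2‖ ≤ K * C * NCf α A B

theorem csumI_nonneg (α : O → ℂ) (A σ : ℝ) (j κ : O) : 0 ≤ csumI α A σ j κ :=
  integral_nonneg fun t => by positivity

theorem ncTerm_nonneg {α : O → ℂ} {A B : ℝ} (hB : 0 ≤ B) (j κ : O) : 0 ≤ ncTerm α A B j κ := by
  rw [ncTerm]
  have h1 := csumI_nonneg α A (-(1 / 3)) j κ
  have h2 := csumI_nonneg α A (3 / 2) j κ
  split_ifs
  · have : (0 : ℝ) ≤ (N κ : ℝ) * B / A ^ 2 := by positivity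
    positivity
  · have : (0 : ℝ) ≤ (N κ : ℝ) * B / A ^ 2 := by positivity
    positivity
  · exact le_rfl

theorem NCf_nonneg (α : O → ℂ) {A B : ℝ} (hA : 0 ≤ A) (hB : 0 ≤ B) : 0 ≤ NCf α A B := by
  rw [NCf]
  have : 0 ≤ ∑ j ∈ SPB (2 * A), ∑' κ : O, ncTerm α A B j κ :=
    sum_nonneg fun j _ => tsum_nonneg fun κ => ncTerm_nonneg hB j κ
  positivity

/-- assembly for one weight -/
theorem main_one {V0 : ℝ → ℝ} (hV : Bump V0) {ξ u0 : ℝ} (hξ : 0 < ξ) (hξ1 : ξ ≤ 1)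
    (hu1 : 1 ≤ u0) (hu2 : u0 ≤ 2) {E : ℝ} (hE : 0 ≤ E)
    (hcube : V1.CubeKernel (Vc V0 ξ u0) ((CM.kap3 : ℂ) * CM.IV (Vc V0 ξ u0)) E)
    {W : O} (hW : InP W) {A B : ℝ} (hA : 1 ≤ A) (hB : 1 ≤ B) {α : O → ℂ} (hα : Adm W A α) :
    |V1s (Vx V0 ξ u0) B W α A
        - kap0 * IVr (Vx V0 ξ u0) * dens W * B ^ (2 / 3 : ℝ) * Qform α A
        - kapP * dens W * B * (∫ u : ℝ, Vx V0 ξ u0 u) * ∑ a ∈ SPB (2 * A), ‖α a‖ ^ 2 * dens a|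
      ≤ E * B *
          (∑ a1 ∈ SPB (2 * A), ∑ a2 ∈ SPB (2 * A),
            if a1 = a2 then ‖α a1‖ ^ 2 * (tau a1 : ℝ) ^ 2 * (A * B) ^ (-(1 / 3) : ℝ)
            else ‖α a1‖ * ‖α a2‖ * emk a1 a2)
        + ‖∑ a1 ∈ SPB (2 * A), ∑ a2 ∈ SPB (2 * A), α a1 * (starRingEnd ℂ) (α a2) *
        V1.ncPair (Vc V0 ξ u0) B W a1 a2‖ := by
  have hA0 : 0 < A := by linarith
  have hB0 : 0 < B := by linarith
  set V := Vc V0 ξ u0 with hVdef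
  have hWt := wt_Vc hV hξ u0
  set κI : ℂ := (CM.kap3 : ℂ) * CM.IV V with hκI
  -- the error of a pair
  set er : O → O → ℂ := fun a1 a2 => V1.pairSum V B W a1 a2 -
    (if a1 = a2 then V1.diagTerm V B W a1 else 0) - V1.mainPair κI B W a1 a2 -
      V1.ncPair V B W a1 a2 with her
  have h1 : ((V1s (Vx V0 ξ u0) B W α A : ℝ) : ℂ) =
      (∑ a1 ∈ SPB (2 * A), ∑ a2 ∈ SPB (2 * A), α a1 * (starRingEnd ℂ) (α a2) *
        V1.mainPair κI B W a1 a2) +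
      (∑ a1 ∈ SPB (2 * A), ∑ a2 ∈ SPB (2 * A), α a1 * (starRingEnd ℂ) (α a2) *
        (if a1 = a2 then V1.diagTerm V B W a1 else 0)) +
      (∑ a1 ∈ SPB (2 * A), ∑ a2 ∈ SPB (2 * A), α a1 * (starRingEnd ℂ) (α a2) * er a1 a2) +
      ∑ a1 ∈ SPB (2 * A), ∑ a2 ∈ SPB (2 * A), α a1 * (starRingEnd ℂ) (α a2) *
        V1.ncPair V B W a1 a2 := by
    rw [V1s_eq hV hξ hξ1 hu2 hB0, V1.S1_expand hWt hB0, ← sum_add_distrib, ← sum_add_distrib,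
      ← sum_add_distrib]
    refine sum_congr rfl fun a1 _ => ?_
    rw [← sum_add_distrib, ← sum_add_distrib, ← sum_add_distrib]
    refine sum_congr rfl fun a2 _ => ?_
    simp only [her]
    ring
  have h2 : (∑ a1 ∈ SPB (2 * A), ∑ a2 ∈ SPB (2 * A), α a1 * (starRingEnd ℂ) (α a2) *
        V1.mainPair κI B W a1 a2).re =
      kap0 * IVr (Vx V0 ξ u0) * dens W * B ^ (2 / 3 : ℝ) * Qform α A := by
    rw [Qform, ← Complex.re_ofReal_mul, mul_sum]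
    congr 1
    refine sum_congr rfl fun a1 _ => ?_
    rw [mul_sum]
    refine sum_congr rfl fun a2 _ => ?_
    rw [hκI, hVdef, mainPair_eq, Complex.ofReal_mul]
    ring
  have h3 : (∑ a1 ∈ SPB (2 * A), ∑ a2 ∈ SPB (2 * A), α a1 * (starRingEnd ℂ) (α a2) *
        (if a1 = a2 then V1.diagTerm V B W a1 else 0)) =
      ((kapP * dens W * B * (∫ u : ℝ, Vx V0 ξ u0 u) *
        ∑ a ∈ SPB (2 * A), ‖α a‖ ^ 2 * dens a : ℝ) : ℂ) := by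
    have e1 : ∀ a1 ∈ SPB (2 * A), ∑ a2 ∈ SPB (2 * A), α a1 * (starRingEnd ℂ) (α a2) *
        (if a1 = a2 then V1.diagTerm V B W a1 else 0) =
        α a1 * (starRingEnd ℂ) (α a1) * V1.diagTerm V B W a1 := by
      intro a1 h
      rw [sum_eq_single a1]
      · rw [if_pos rfl]
      · intro a2 _ hne
        rw [if_neg (Ne.symm hne), mul_zero]
      · intro h'; exact absurd h h'
    rw [sum_congr rfl e1, mul_sum, Complex.ofReal_sum]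
    refine sum_congr rfl fun a _ => ?_
    rw [hVdef, diagTerm_eq hV hξ hξ1 hu1, Complex.mul_conj, Complex.normSq_eq_norm_sq]
    push_cast
    ring
  have h4 : ‖∑ a1 ∈ SPB (2 * A), ∑ a2 ∈ SPB (2 * A), α a1 * (starRingEnd ℂ) (α a2) * er a1 a2‖ ≤
      E * B * (∑ a1 ∈ SPB (2 * A), ∑ a2 ∈ SPB (2 * A),
            if a1 = a2 then ‖α a1‖ ^ 2 * (tau a1 : ℝ) ^ 2 * (A * B) ^ (-(1 / 3) : ℝ)
            else ‖α a1‖ * ‖α a2‖ * emk a1 a2) := by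
    rw [mul_sum]
    refine (norm_sum_le _ _).trans (sum_le_sum fun a1 _ => ?_)
    rw [mul_sum]
    refine (norm_sum_le _ _).trans (sum_le_sum fun a2 _ => ?_)
    rw [norm_mul, norm_mul, Complex.norm_conj]
    by_cases z1 : α a1 = 0
    · rw [z1]
      split_ifs <;> simp
    by_cases z2 : α a2 = 0
    · rw [z2]
      split_ifs with h12
      · rw [h12, z2]; simp
      · simp
    obtain ⟨p1, c1, l1, -⟩ := hα.supp a1 z1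
    obtain ⟨p2, c2, l2, -⟩ := hα.supp a2 z2
    have P := V1.pairData p1.1 p2.1 p1.2 p2.2 c1.symm c2.symm
    have h5 : ‖er a1 a2‖ ≤ V1.errPair E B a1 a2 :=
      V1.pair_main hWt hE hcube hB0 hW.1 hW.2 P
    split_ifs with h12
    · subst h12
      have h6 := errPair_diag hE hA0 hB0 p1.1 l1
      calc ‖α a1‖ * ‖α a1‖ * ‖er a1 a1‖ ≤ ‖α a1‖ * ‖α a1‖ *
            (E * B * ((tau a1 : ℝ) ^ 2 * (A * B) ^ (-(1 / 3) : ℝ))) := by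
              gcongr
              exact h5.trans h6
        _ = _ := by ring
    · have h6 := errPair_le hE hB0 p1.1 p2.1
      calc ‖α a1‖ * ‖α a2‖ * ‖er a1 a2‖ ≤ ‖α a1‖ * ‖α a2‖ * (E * B * emk a1 a2) := by
              gcongr
              exact h5.trans h6
        _ = _ := by ring
  set X1 := ∑ a1 ∈ SPB (2 * A), ∑ a2 ∈ SPB (2 * A), α a1 * (starRingEnd ℂ) (α a2) *
        V1.mainPair κI B W a1 a2 with hX1
  set X3 := ∑ a1 ∈ SPB (2 * A), ∑ a2 ∈ SPB (2 * A), α a1 * (starRingEnd ℂ) (α a2) * er a1 a2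
    with hX3
  set X4 := ∑ a1 ∈ SPB (2 * A), ∑ a2 ∈ SPB (2 * A), α a1 * (starRingEnd ℂ) (α a2) *
        V1.ncPair V B W a1 a2 with hX4
  have h5 : V1s (Vx V0 ξ u0) B W α A
        - kap0 * IVr (Vx V0 ξ u0) * dens W * B ^ (2 / 3 : ℝ) * Qform α A
        - kapP * dens W * B * (∫ u : ℝ, Vx V0 ξ u0 u) * ∑ a ∈ SPB (2 * A), ‖α a‖ ^ 2 * dens a =
      X3.re + X4.re := by
    have h6 := congrArg Complex.re h1
    rw [h3, Complex.ofReal_re, Complex.add_re, Complex.add_re, Complex.add_re, h2,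
      Complex.ofReal_re] at h6
    rw [h6]; ring
  rw [h5]
  calc |X3.re + X4.re| ≤ |X3.re| + |X4.re| := abs_add_le _ _
    _ ≤ ‖X3‖ + ‖X4‖ := add_le_add (Complex.abs_re_le_norm _) (Complex.abs_re_le_norm _)
    _ ≤ _ := by gcongr

/-- (C7) -/
theorem v1Hyp_of (hcube : CubeXi) (hsep : SepXi) (hnc : NCBound) : V1Hyp := by
  intro V0 hV
  obtain ⟨E0, hE0, hE⟩ := hcube V0 hV
  obtain ⟨C1, c1, hC1, hc1, hs1⟩ := hsep V0 hV (1 / 6) (by norm_num)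
  obtain ⟨C2, c2, hC2, hc2, hs2⟩ := hsep V0 hV 2 (by norm_num)
  refine ⟨E0, hE0, fun W hW => ?_⟩
  obtain ⟨K, hK, hnc'⟩ := hnc W hW
  refine ⟨K * (C1 + C2), c1 + c2, by positivity, by positivity, ?_⟩
  intro ξ u0 A B hξ hξ1 hu1 hu2 hA hB α hα
  have hp : ∀ x y : ℝ, 0 ≤ x → 0 ≤ y → ξ ^ (-x) ≤ ξ ^ (-(x + y)) := fun x y _ hy =>
    Real.rpow_le_rpow_of_exponent_ge hξ hξ1 (by linarith)
  obtain ⟨H1, h1⟩ := hs1 ξ u0 hξ hξ1 hu1 hu2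
  obtain ⟨H2, h2⟩ := hs2 ξ u0 hξ hξ1 hu1 hu2
  have g1 : C1 * ξ ^ (-c1) ≤ (C1 + C2) * ξ ^ (-(c1 + c2)) := by
    have := hp c1 c2 hc1 hc2
    have h3 : 0 ≤ C2 * ξ ^ (-(c1 + c2)) := by positivity
    nlinarith [mul_le_mul_of_nonneg_left this hC1]
  have g2 : C2 * ξ ^ (-c2) ≤ (C1 + C2) * ξ ^ (-(c1 + c2)) := by
    have := hp c2 c1 hc2 hc1
    rw [add_comm c2 c1] at this
    have h3 : 0 ≤ C1 * ξ ^ (-(c1 + c2)) := by positivity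
    nlinarith [mul_le_mul_of_nonneg_left this hC2]
  have hmain := main_one hV hξ hξ1 hu1 hu2 (by positivity) (hE ξ u0 hξ hξ1 hu1 hu2) hW hA hB hα
  have hn := hnc' (Vc V0 ξ u0) (wt_Vc hV hξ u0) H1 H2 ((C1 + C2) * ξ ^ (-(c1 + c2)))
    (by positivity) (SepK_mono h1 g1) (SepK_mono h2 g2) A B hA hB α hα
  refine hmain.trans (add_le_add (le_of_eq rfl) (hn.trans (le_of_eq (by ring))))

end Vale.Agent.P006.V1C
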